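import Mathlib
import Vale.Agent.P022D.Gma.Rep

/-! # P022K: restriction to a subgroup of finite index gives finite maps of deformation rings -/

set_option linter.all false

open IsLocalRing Polynomial

noncomputable section

namespace Vale.Agent.P022K.FinR

open Vale.Agent.P022.H346

variable {S R : Type*} [CommRing S] [CommRing R] [Algebra S R]

theorem dick {A : Type*} [CommRing A] (a : A) (n : ℕ) :
    (dickson 1 a n).natDegree ≤ n ∧ (dickson 1 a (n + 1)).natDegree ≤ n + 1 ∧
      (dickson 1 a (n + 1)).coeff (n + 1) = 1 := by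
  induction n with
  | zero =>
    refine ⟨?_, by simpa using natDegree_X_le, by simp⟩
    rw [dickson_zero]
    norm_num
  | succ n ih =>
    obtain ⟨h1, h2, h3⟩ := ih
    have h4 : (C a * dickson 1 a n).natDegree ≤ n := (natDegree_C_mul_le _ _).trans h1
    refine ⟨h2, ?_, ?_⟩
    · rw [dickson_add_two]
      refine (natDegree_sub_le _ _).trans (max_le (natDegree_mul_le.trans ?_) (by omega))
      have := natDegree_X_le (R := A)
      omega
    · rw [dickson_add_two, coeff_sub, coeff_X_mul, h3,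
        coeff_eq_zero_of_natDegree_lt (by omega : _ < n + 1 + 1), sub_zero]

/-- the first term of a Lucas sequence is integral over the `n`-th term and the parameter -/
theorem int_of_rec {u : ℕ → R} {d : R} (h0 : u 0 = 2)
    (h : ∀ n, u (n + 2) = u 1 * u (n + 1) - d * u n) {n : ℕ} (hn : 0 < n)
    (h1 : IsIntegral S (u n)) (h2 : IsIntegral S d) : IsIntegral S (u 1) := by
  let A := integralClosure S R
  have e : ∀ n, aeval (u 1) (dickson 1 (⟨d, h2⟩ : A) n) = u n ∧
      aeval (u 1) (dickson 1 (⟨d, h2⟩ : A) (n + 1)) = u (n + 1) := fun n => by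
    induction n with
    | zero =>
      refine ⟨?_, by simp⟩
      rw [dickson_zero, h0, map_sub, map_ofNat, map_natCast]
      norm_num
    | succ n ih =>
      refine ⟨ih.2, ?_⟩
      rw [dickson_add_two, map_sub, map_mul, map_mul, ih.1, ih.2, aeval_X, aeval_C, h]
      rfl
  obtain ⟨n, rfl⟩ : ∃ m, n = m + 1 := ⟨n - 1, by omega⟩
  obtain ⟨-, a, b⟩ := dick (⟨d, h2⟩ : A) n
  refine isIntegral_trans (A := A) _ ⟨dickson 1 (⟨d, h2⟩ : A) (n + 1) - C ⟨_, h1⟩,
    monic_of_natDegree_le_of_coeff_eq_one (n + 1)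
      ((natDegree_sub_le _ _).trans (max_le a (by simp))) (by rw [coeff_sub, b, coeff_C_succ, sub_zero]), ?_⟩
  rw [← aeval_def, map_sub, (e n).2, aeval_C]
  exact sub_self _

variable {G : Type*} [Group G]

/-- the values of a pseudo-character are integral over its values on a subgroup of finite index -/
theorem tf_int {t : G → R} {d : G →* Rˣ} (T : TF t d) (H : Subgroup G) [H.FiniteIndex]
    (ht : ∀ h ∈ H, IsIntegral S (t h)) (hd : ∀ h ∈ H, IsIntegral S (d h : R)) (g : G) :
    IsIntegral S (t g) ∧ IsIntegral S (d g : R) := by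
  obtain ⟨n, n0, -, m⟩ := H.exists_pow_mem_of_index_ne_zero Subgroup.FiniteIndex.index_ne_zero g
  have k : IsIntegral S (d g : R) := IsIntegral.of_pow n0 (by simpa using hd _ m)
  refine ⟨?_, k⟩
  have := int_of_rec (u := fun n => t (g ^ n)) (by simpa using T.one) (fun n => by
    have := T.mul (g ^ (n + 1)) g
    rw [← pow_succ, pow_succ g n, mul_inv_cancel_right, ← pow_succ] at this
    rw [pow_one]
    linear_combination -this) n0 (ht _ m) k
  simpa using this

theorem trace_rec (x : Matrix (Fin 2) (Fin 2) R) (n : ℕ) :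
    (x ^ (n + 2)).trace = x.trace * (x ^ (n + 1)).trace - x.det * (x ^ n).trace := by
  rw [pow_succ, pow_succ]
  simp only [Matrix.trace_fin_two, Matrix.det_fin_two, Matrix.mul_apply, Fin.sum_univ_two]
  ring

/-- the same for representations -/
theorem rep_int (ρ : G →* Matrix (Fin 2) (Fin 2) R) (H : Subgroup G) [H.FiniteIndex]
    (ht : ∀ h ∈ H, IsIntegral S (ρ h).trace) (hd : ∀ h ∈ H, IsIntegral S (ρ h).det) (g : G) :
    IsIntegral S (ρ g).trace ∧ IsIntegral S (ρ g).det := by
  obtain ⟨n, n0, -, m⟩ := H.exists_pow_mem_of_index_ne_zero Subgroup.FiniteIndex.index_ne_zero g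
  have k : IsIntegral S (ρ g).det := IsIntegral.of_pow n0 (by simpa using hd _ m)
  refine ⟨?_, k⟩
  have := int_of_rec (u := fun n => (ρ g ^ n).trace) (by simp) (fun n => by
    rw [pow_one, trace_rec]) n0 (by simpa using ht _ m) k
  simpa using this

/-- a subring which is closed under inversion of units and integrally closed -/
structure Sat (A : Subring R) : Prop where
  inv : ∀ x ∈ A, ∀ y, x * y = 1 → y ∈ A
  int : ∀ x, IsIntegral A x → x ∈ A

theorem prec_pi (I : Ideal S) [IsPrecomplete I S] (ι : Type*) [Finite ι] :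
    IsPrecomplete I (ι → S) := by
  classical
  have := Fintype.ofFinite ι
  refine ⟨fun f hf => ?_⟩
  have h1 : ∀ i, ∃ l : S, ∀ n, f n i ≡ l [SMOD (I ^ n • ⊤ : Submodule S S)] := fun i =>
    IsPrecomplete.prec inferInstance (f := fun n => f n i) fun {m n} hmn => by
      have h2 := SModEq.sub_mem.1 (hf hmn)
      rw [SModEq.sub_mem]
      have h3 := Submodule.mem_map_of_mem (f := LinearMap.proj (R := S) (φ := fun _ : ι => S) i) h2
      rw [Submodule.map_smul''] at h3
      exact Submodule.smul_mono le_rfl le_top h3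
  choose l hl using h1
  refine ⟨l, fun n => SModEq.sub_mem.2 ?_⟩
  rw [← Finset.univ_sum_single (f n - l)]
  refine sum_mem fun i _ => ?_
  have h3 := Submodule.mem_map_of_mem (f := LinearMap.single S (fun _ : ι => S) i)
    (SModEq.sub_mem.1 (hl i n))
  rw [Submodule.map_smul''] at h3
  exact Submodule.smul_mono le_rfl le_top h3

/-- **Nakayama's lemma for complete rings** -/
theorem nak (I : Ideal S) [IsPrecomplete I S] {M : Type*} [AddCommGroup M] [Module S M]
    [IsHausdorff I M] [Module.Finite S (M ⧸ (I • ⊤ : Submodule S M))] : Module.Finite S M := by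
  obtain ⟨n, f, hf⟩ := Module.Finite.exists_fin' S (M ⧸ (I • ⊤ : Submodule S M))
  obtain ⟨g, hg⟩ := Module.projective_lifting_property (I • ⊤ : Submodule S M).mkQ f
    (Submodule.mkQ_surjective _)
  have := prec_pi I (Fin n)
  exact Module.Finite.of_surjective g (surjective_of_mkQ_comp_surjective (I := I) (hg ▸ hf))

variable [IsLocalRing S] [IsLocalRing R] [IsNoetherianRing R]

/-- a local map of complete local rings with zero-dimensional fibre is finite -/
theorem fin_of_prime [IsPrecomplete (maximalIdeal S) S]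
    (hl : (maximalIdeal S).map (algebraMap S R) ≤ maximalIdeal R)
    [Module.Finite S (R ⧸ maximalIdeal R)]
    (h : ∀ p : Ideal R, p.IsPrime → (maximalIdeal S).map (algebraMap S R) ≤ p →
      maximalIdeal R ≤ p) : Module.Finite S R := by
  let I := (maximalIdeal S).map (algebraMap S R)
  have : IsHausdorff (maximalIdeal S) R := IsHausdorff.of_map hl
  have f1 : Module.Finite S (R ⧸ I) :=
    Module.finite_of_surjective_of_ker_le_nilradical (Ideal.Quotient.factorₐ S hl)
      (Ideal.Quotient.factor_surjective hl) (fun x hx => by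
        obtain ⟨x, rfl⟩ := Ideal.Quotient.mk_surjective x
        have h1 : x ∈ I.radical := by
          rw [Ideal.radical_eq_sInf, Submodule.mem_sInf]
          exact fun p hp => h p hp.2 hp.1 (Ideal.Quotient.eq_zero_iff_mem.1 hx)
        obtain ⟨n, hn⟩ := h1
        exact mem_nilradical.2 ⟨n, by rw [← map_pow, Ideal.Quotient.eq_zero_iff_mem.2 hn]⟩)
      (IsNoetherian.noetherian _)
  have : Module.Finite S (R ⧸ (maximalIdeal S • ⊤ : Submodule S R)) := by
    rw [Ideal.smul_top_eq_map]
    exact Module.Finite.equiv (Submodule.Quotient.restrictScalarsEquiv S I).symm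
  exact nak (maximalIdeal S)

/-- **FIN**: `R` is finite over `S` if it is generated, modulo the square of the maximal ideal, by
integral elements and inverses of units -/
theorem fin [IsPrecomplete (maximalIdeal S) S]
    (hl : (maximalIdeal S).map (algebraMap S R) ≤ maximalIdeal R)
    [Module.Finite S (R ⧸ maximalIdeal R)]
    (h : ∀ A : Subring R, Sat A → (∀ x, IsIntegral S x → x ∈ A) →
      ∀ r, ∃ a ∈ A, r - a ∈ maximalIdeal R ^ 2) : Module.Finite S R := by
  refine fin_of_prime hl fun p hp hI => ?_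
  let C := integralClosure S (R ⧸ p)
  have m1 : (⊥ : Ideal C).IsMaximal := by
    refine Ideal.isMaximal_of_isIntegral_of_isMaximal_comap (R := S) ⊥ ?_
    have e : maximalIdeal S = (⊥ : Ideal C).comap (algebraMap S C) :=
      (maximalIdeal.isMaximal S).eq_of_le (Ideal.IsPrime.ne_top inferInstance) fun s hs =>
        Ideal.mem_comap.2 (Ideal.mem_bot.2
          (Subtype.ext (Ideal.Quotient.eq_zero_iff_mem.2 (hI (Ideal.mem_map_of_mem _ hs)))))
    rw [← e]
    infer_instance
  have m2 : IsField C := Ring.isField_iff_maximal_bot.2 m1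
  let A : Subring R := C.toSubring.comap (Ideal.Quotient.mk p)
  have iv : ∀ x ∈ A, x ∉ p → ∃ y ∈ C, Ideal.Quotient.mk p x * y = 1 := fun x hx hn => by
    obtain ⟨y, hy⟩ := m2.mul_inv_cancel (a := ⟨_, hx⟩) fun e =>
      hn (Ideal.Quotient.eq_zero_iff_mem.1 (congrArg Subtype.val e))
    exact ⟨y, y.2, congrArg Subtype.val hy⟩
  have key := h A ⟨fun x hx y e => ?_, fun x hx => ?_⟩ fun x hx =>
    hx.map (Ideal.Quotient.mkₐ S p)
  · refine Submodule.le_of_le_smul_of_le_jacobson_bot (I := maximalIdeal R)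
      (IsNoetherian.noetherian _) (maximalIdeal_le_jacobson _) fun r hr => ?_
    obtain ⟨a, ha, e⟩ := key r
    have a1 : a ∈ maximalIdeal R := by
      have := sub_mem hr (Ideal.pow_le_self two_ne_zero e)
      rwa [sub_sub_cancel] at this
    have a2 : a ∈ p := by
      by_contra n
      obtain ⟨y, -, hy⟩ := iv a ha n
      obtain ⟨y, rfl⟩ := Ideal.Quotient.mk_surjective y
      have := le_maximalIdeal hp.ne_top (Ideal.Quotient.eq.1 ((map_mul _ _ _).trans hy))
      refine (maximalIdeal.isMaximal R).ne_top ((Ideal.eq_top_iff_one _).2 ?_)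
      have := sub_mem (Ideal.mul_mem_right y _ a1) this
      rwa [sub_sub_cancel] at this
    rw [← add_sub_cancel a r]
    exact Submodule.add_mem_sup a2 (by rwa [smul_eq_mul, ← sq])
  · obtain ⟨z, hz, e'⟩ := iv x hx fun m =>
      hp.ne_top ((Ideal.eq_top_iff_one _).2 (e ▸ Ideal.mul_mem_right y _ m))
    have : Ideal.Quotient.mk p y = z := by
      rw [← mul_one (Ideal.Quotient.mk p y), ← e', ← mul_assoc, ← map_mul, mul_comm y, e, map_one,
        one_mul]
    show Ideal.Quotient.mk p y ∈ C
    rwa [this]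
  · let φ : A →+* C := ((Ideal.Quotient.mk p).comp A.subtype).codRestrict C.toSubring fun a => a.2
    exact isIntegral_trans (A := C) _ (hx.map_of_comp_eq φ (Ideal.Quotient.mk p) rfl)

/-- **R_ℚ is finite over R_F**: `R` carries a representation `ρ` of `G` whose traces and
determinants generate `R` in the above sense, those of `H` come from `S` -/
theorem fin_res [IsPrecomplete (maximalIdeal S) S]
    (hl : (maximalIdeal S).map (algebraMap S R) ≤ maximalIdeal R)
    [Module.Finite S (R ⧸ maximalIdeal R)] (ρ : G →* Matrix (Fin 2) (Fin 2) R) (H : Subgroup G)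
    [H.FiniteIndex] (ht : ∀ h ∈ H, IsIntegral S (ρ h).trace) (hd : ∀ h ∈ H, IsIntegral S (ρ h).det)
    (h : ∀ A : Subring R, Sat A → (∀ s, algebraMap S R s ∈ A) → (∀ g, (ρ g).trace ∈ A) →
      (∀ g, (ρ g).det ∈ A) → ∀ r, ∃ a ∈ A, r - a ∈ maximalIdeal R ^ 2) : Module.Finite S R :=
  fin hl fun A a b => h A a (fun s => b _ isIntegral_algebraMap)
    (fun g => b _ (rep_int ρ H ht hd g).1) fun g => b _ (rep_int ρ H ht hd g).2

/-- the entries of a representation in normal form lie in every saturated subring which contains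
the traces -/
theorem Sat.ent {B Γ : Type} [CommRing B] [Group Γ] {A : Subring B} (hA : Sat A)
    {ρ : Γ →* Matrix (Fin 2) (Fin 2) B} (ht : ∀ g, (ρ g).trace ∈ A) {g₀ s₀ : Γ} {α β : B}
    (hd : (ρ g₀).det ∈ A) (h0 : ρ g₀ = !![α, 0; 0, β]) (hu : IsUnit (α - β)) (hb : ρ s₀ 0 1 ∈ A)
    (h01 : IsUnit (ρ s₀ 0 1)) (h10 : IsUnit (ρ s₀ 1 0)) (g : Γ) (i j : Fin 2) : ρ g i j ∈ A := by
  obtain ⟨u, hu⟩ := hu.exists_right_inv
  obtain ⟨b', hb'⟩ := h01.exists_right_inv
  obtain ⟨v, hv⟩ := (h01.mul h10).exists_right_inv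
  have t0 := ht g₀
  rw [h0, Matrix.det_fin_two_of, mul_zero, sub_zero] at hd
  rw [h0, Matrix.trace_fin_two_of] at t0
  have b1 : β ∈ A := hA.int _ ⟨X ^ 2 + (C (-⟨_, t0⟩) * X + C ⟨_, hd⟩),
    monic_X_pow_add (lt_of_le_of_lt degree_linear_le (by norm_num)), by
      simp only [eval₂_add, eval₂_mul, eval₂_C, eval₂_X, eval₂_X_pow]
      show β ^ 2 + (-(α + β) * β + α * β) = 0
      ring⟩
  have u1 : u ∈ A := hA.inv _ (by
    have := A.sub_mem (A.sub_mem t0 b1) b1
    rwa [add_sub_cancel_right] at this) _ hu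
  have he : ∀ g, P022D.Gma.ent (fun g => (ρ g).trace) g₀ β u g ∈ A := fun g =>
    A.mul_mem (A.sub_mem (ht _) (A.mul_mem b1 (ht _))) u1
  rw [← P022D.Gma.mu_eq s₀ h0 hu] at hv
  rw [P022D.Gma.eq_mat h0 hu rfl hb' hv g]
  exact P022D.Gma.mat_mem A ht g₀ s₀ b1 u1 hb (hA.inv _ hb _ hb')
    (hA.inv _ (A.sub_mem (he _) (A.pow_mem (he _) 2)) _ hv) g i j

end Vale.Agent.P022K.FinR
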